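import Vale.Agent.P183.LowerBounded

/-! P183 hand-in: Day doublings preserve representability; lower and upper bounded lattices are representable. -/

namespace Vale.Agent.Results.P183.DoublingClosure

open Vale.P183

theorem result :
    (∀ (K : Type) [PartialOrder K] (C : Set K) (a : K),
      Representable K → a ∈ C → C ⊆ Set.Ici a → (∀ x y, a ≤ x → x ≤ y → y ∈ C → x ∈ C) →
        Representable (LowerDoubled C a)) ∧
    (∀ (K : Type) [PartialOrder K] (C : Set K) (b : K),
      Representable K → b ∈ C → C ⊆ Set.Iic b → (∀ x y, x ∈ C → x ≤ y → y ≤ b → y ∈ C) →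
        Representable (UpperDoubled C b)) ∧
    (∀ (L : Type) [PartialOrder L], Representable L → Representable Lᵒᵈ) ∧
    (∀ (L : Type) [Lattice L] [OrderBot L] [Finite L], IsLowerBounded L → Representable L) ∧
    (∀ (L : Type) [Lattice L] [OrderTop L] [Finite L], IsLowerBounded Lᵒᵈ → Representable L) :=
  ⟨fun _ _ C a hK _ _ hdown => (clo_lowerDoubled hK.clo C a hdown).representable,
    fun _ _ C b hK _ _ hup => (clo_upperDoubled hK.clo C b hup).representable,
    fun _ _ hL => (clo_orderDual hL.clo).representable,
    fun L _ _ _ h => (clo_lowerBounded L h).representable,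
    fun L _ _ _ h =>
      (clo_congr (OrderIso.dualDual L).symm (clo_orderDual (clo_lowerBounded Lᵒᵈ h))).representable⟩

end Vale.Agent.Results.P183.DoublingClosure
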